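import Vale.Agent.P302R.Main

namespace Vale.Agent.P302R

open Finset

variable {ι : Type*} [DecidableEq ι]

/-- If all sizes in `S` exceed `1 / q` and `c` is a configuration on `S`, then it has fewer
than `q` items. -/
theorem count_lt (S : Finset ℝ) (c : ℝ → ℕ) (q : ℕ) (hq : 0 < q)
    (hS : ∀ σ ∈ S, 1 < (q : ℝ) * σ)
    (hc : ∑ σ ∈ S, σ * (c σ : ℝ) ≤ 1) : ∑ σ ∈ S, c σ < q := by
  by_contra hcon
  push Not at hcon
  have hqr : (0 : ℝ) < (q : ℝ) := by exact_mod_cast hq
  have h1 : (q : ℝ) ≤ ∑ σ ∈ S, (c σ : ℝ) := by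
    have : (q : ℝ) ≤ ((∑ σ ∈ S, c σ : ℕ) : ℝ) := by exact_mod_cast hcon
    rwa [Nat.cast_sum] at this
  obtain ⟨σ, hσ, hcσ⟩ : ∃ σ ∈ S, 0 < c σ := by
    by_contra hno
    push Not at hno
    have : ∑ σ ∈ S, c σ = 0 := Finset.sum_eq_zero (fun σ hσ => Nat.le_zero.mp (hno σ hσ))
    omega
  have h2 : ∑ σ ∈ S, (c σ : ℝ) < ∑ σ ∈ S, (q : ℝ) * (σ * (c σ : ℝ)) := by
    apply Finset.sum_lt_sum
    · intro τ hτ
      have := hS τ hτ
      have hc0 : (0 : ℝ) ≤ (c τ : ℝ) := Nat.cast_nonneg _
      nlinarith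
    · refine ⟨σ, hσ, ?_⟩
      have := hS σ hσ
      have hc0 : (0 : ℝ) < (c σ : ℝ) := by exact_mod_cast hcσ
      nlinarith
  rw [← Finset.mul_sum] at h2
  nlinarith

theorem base2 (a : ι → ℝ) (T : Finset ι) (h : ∀ i ∈ T, 0 < a i ∧ a i ≤ 1)
    (h2 : ∀ i ∈ T, 1 < ((2 : ℕ) : ℝ) * a i) (hLP : LP a T ≤ ((2 : ℕ) : ℝ)) :
    Packs a T (2 + 1) := by
  have hd := dual a T h (fun _ => 1) (fun _ _ => zero_le_one) (by
    intro c hc
    have hS : ∀ σ ∈ sizes a T, 1 < ((2 : ℕ) : ℝ) * σ := by
      intro σ hσ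
      obtain ⟨l, hl, rfl⟩ := Finset.mem_image.mp hσ
      exact h2 l hl
    have h1 := count_lt (sizes a T) c 2 (by norm_num) hS hc
    have h3 : ∑ σ ∈ sizes a T, c σ ≤ 1 := by omega
    have h4 : ((∑ σ ∈ sizes a T, c σ : ℕ) : ℝ) ≤ ((1 : ℕ) : ℝ) := by exact_mod_cast h3
    rw [Nat.cast_sum] at h4
    simpa using h4)
  simp only [Finset.sum_const, nsmul_eq_mul, mul_one] at hd
  have : (T.card : ℝ) ≤ ((2 : ℕ) : ℝ) := hd.trans hLP
  have h5 : T.card ≤ 2 := by exact_mod_cast this
  exact (packs_each T h).mono (by omega)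

theorem base3 (a : ι → ℝ) (T : Finset ι) (h : ∀ i ∈ T, 0 < a i ∧ a i ≤ 1)
    (h3 : ∀ i ∈ T, 1 < ((3 : ℕ) : ℝ) * a i) (hLP : LP a T ≤ ((3 : ℕ) : ℝ)) :
    Packs a T (3 + 1) := by
  classical
  have hS : ∀ σ ∈ sizes a T, 1 < ((3 : ℕ) : ℝ) * σ := by
    intro σ hσ
    obtain ⟨l, hl, rfl⟩ := Finset.mem_image.mp hσ
    exact h3 l hl
  have hSpos : ∀ σ ∈ sizes a T, 0 < σ := by
    intro σ hσ
    obtain ⟨l, hl, rfl⟩ := Finset.mem_image.mp hσ
    exact (h l hl).1
  have hLarge : ∀ c : ℝ → ℕ, ∑ σ ∈ sizes a T, σ * (c σ : ℝ) ≤ 1 →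
      ∑ σ ∈ (sizes a T).filter (fun σ => 1 / 2 < σ), c σ ≤ 1 := by
    intro c hc
    have h1 : ∑ σ ∈ (sizes a T).filter (fun σ => 1 / 2 < σ), σ * (c σ : ℝ) ≤ 1 := by
      refine le_trans (Finset.sum_le_sum_of_subset_of_nonneg (Finset.filter_subset _ _) ?_) hc
      intro σ hσ _
      exact mul_nonneg (hSpos σ hσ).le (Nat.cast_nonneg _)
    have h2 := count_lt ((sizes a T).filter (fun σ => 1 / 2 < σ)) c 2 (by norm_num) (by
      intro σ hσ
      have := (Finset.mem_filter.mp hσ).2
      push_cast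
      linarith) h1
    omega
  set L := T.filter (fun i => 1 / 2 < a i) with hL
  set M := T.filter (fun i => ¬ 1 / 2 < a i) with hM
  have hLM : L ∪ M = T := Finset.filter_union_filter_not_eq _ _
  have hdis : Disjoint L M := Finset.disjoint_filter_filter_not _ _ _
  have hcardT : T.card = L.card + M.card := by
    rw [← hLM, Finset.card_union_of_disjoint hdis]
  -- at most six items
  have f1 : L.card + M.card ≤ 6 := by
    have hd := dual a T h (fun _ => 1 / 2) (fun _ _ => by norm_num) (by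
      intro c hc
      have h1 := count_lt (sizes a T) c 3 (by norm_num) hS hc
      have h4 : ((∑ σ ∈ sizes a T, c σ : ℕ) : ℝ) ≤ ((2 : ℕ) : ℝ) := by
        exact_mod_cast (by omega : ∑ σ ∈ sizes a T, c σ ≤ 2)
      rw [Nat.cast_sum] at h4
      rw [← Finset.sum_mul]
      push_cast at h4
      linarith)
    simp only [Finset.sum_const, nsmul_eq_mul] at hd
    have h5 : (T.card : ℝ) ≤ ((6 : ℕ) : ℝ) := by
      push_cast at hLP ⊢
      linarith
    have : T.card ≤ 6 := by exact_mod_cast h5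
    omega
  have f2 : L.card ≤ 3 := by
    have hd := dual a T h (fun σ => if 1 / 2 < σ then 1 else 0)
      (fun σ _ => by split_ifs <;> norm_num) (by
      intro c hc
      have h1 := hLarge c hc
      have h4 : ((∑ σ ∈ (sizes a T).filter (fun σ => 1 / 2 < σ), c σ : ℕ) : ℝ) ≤ ((1 : ℕ) : ℝ) := by
        exact_mod_cast h1
      rw [Nat.cast_sum, Finset.sum_filter] at h4
      simpa [mul_ite] using h4)
    rw [← Finset.sum_filter, Finset.sum_const, nsmul_eq_mul, mul_one] at hd
    have h5 : (L.card : ℝ) ≤ ((3 : ℕ) : ℝ) := hd.trans hLP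
    exact_mod_cast h5
  have hLh : ∀ i ∈ L, 0 < a i ∧ a i ≤ 1 := fun i hi => h i (Finset.mem_filter.mp hi).1
  have hMh : ∀ i ∈ M, 0 < a i ∧ a i ≤ 1 / 2 := fun i hi =>
    ⟨(h i (Finset.mem_filter.mp hi).1).1, not_lt.mp (Finset.mem_filter.mp hi).2⟩
  by_cases hpair : ∃ x ∈ L, ∃ y ∈ M, a x + a y ≤ 1
  · obtain ⟨x, hx, y, hy, hxy⟩ := hpair
    have hne : x ≠ y := fun he => Finset.disjoint_left.mp hdis hx (he ▸ hy)
    have p1 : Packs a ({x, y} : Finset ι) 1 := by
      apply packs_one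
      · rw [Finset.sum_pair hne]; exact hxy
      · intro i hi
        rcases Finset.mem_insert.mp hi with rfl | hi
        · exact (hLh _ hx).1
        · rw [Finset.mem_singleton.mp hi]; exact (hMh y hy).1
    have p2 : Packs a (L.erase x) (L.card - 1) := by
      have := packs_each (L.erase x) (fun i hi => hLh i (Finset.mem_of_mem_erase hi))
      rwa [Finset.card_erase_of_mem hx] at this
    have p3 := packs_half _ (M.erase y) rfl (fun i hi => hMh i (Finset.mem_of_mem_erase hi))
    rw [Finset.card_erase_of_mem hy] at p3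
    have d1 : Disjoint (L.erase x) (M.erase y) :=
      Finset.disjoint_of_subset_left (Finset.erase_subset _ _)
        (Finset.disjoint_of_subset_right (Finset.erase_subset _ _) hdis)
    have d2 : Disjoint ({x, y} : Finset ι) (L.erase x ∪ M.erase y) := by
      rw [Finset.disjoint_left]
      intro i hi hi2
      rcases Finset.mem_insert.mp hi with rfl | hi
      · rcases Finset.mem_union.mp hi2 with h1 | h1
        · exact (Finset.mem_erase.mp h1).1 rfl
        · exact Finset.disjoint_left.mp hdis hx (Finset.mem_of_mem_erase h1)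
      · rw [Finset.mem_singleton.mp hi] at hi2
        rcases Finset.mem_union.mp hi2 with h1 | h1
        · exact Finset.disjoint_left.mp hdis (Finset.mem_of_mem_erase h1) hy
        · exact (Finset.mem_erase.mp h1).1 rfl
    have p4 := Packs.union d2 p1 (Packs.union d1 p2 p3)
    have hTeq : ({x, y} : Finset ι) ∪ (L.erase x ∪ M.erase y) = T := by
      rw [← hLM]
      ext i
      simp only [Finset.mem_union, Finset.mem_insert, Finset.mem_singleton, Finset.mem_erase]
      constructor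
      · rintro ((rfl | rfl) | (⟨_, h1⟩ | ⟨_, h1⟩))
        · exact Or.inl hx
        · exact Or.inr hy
        · exact Or.inl h1
        · exact Or.inr h1
      · rintro (h1 | h1)
        · by_cases hix : i = x
          · exact Or.inl (Or.inl hix)
          · exact Or.inr (Or.inl ⟨hix, h1⟩)
        · by_cases hiy : i = y
          · exact Or.inl (Or.inr hiy)
          · exact Or.inr (Or.inr ⟨hiy, h1⟩)
    rw [hTeq] at p4
    have hLc : 0 < L.card := Finset.card_pos.mpr ⟨x, hx⟩
    have hMc : 0 < M.card := Finset.card_pos.mpr ⟨y, hy⟩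
    exact p4.mono (by omega)
  · push Not at hpair
    have f3 : 2 * L.card + M.card ≤ 6 := by
      have hd := dual a T h (fun σ => if 1 / 2 < σ then 1 else 1 / 2)
        (fun σ _ => by split_ifs <;> norm_num) (by
        intro c hc
        have hA := hLarge c hc
        have hN := count_lt (sizes a T) c 3 (by norm_num) hS hc
        have hsplit : ∑ σ ∈ sizes a T, c σ =
            ∑ σ ∈ (sizes a T).filter (fun σ => 1 / 2 < σ), c σ +
            ∑ σ ∈ (sizes a T).filter (fun σ => ¬ 1 / 2 < σ), c σ :=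
          (Finset.sum_filter_add_sum_filter_not _ _ _).symm
        have hB : 2 * ∑ σ ∈ (sizes a T).filter (fun σ => 1 / 2 < σ), c σ +
            ∑ σ ∈ (sizes a T).filter (fun σ => ¬ 1 / 2 < σ), c σ ≤ 2 := by
          by_contra hcon
          have hA1 : 0 < ∑ σ ∈ (sizes a T).filter (fun σ => 1 / 2 < σ), c σ := by omega
          have hB1 : 0 < ∑ σ ∈ (sizes a T).filter (fun σ => ¬ 1 / 2 < σ), c σ := by omega
          obtain ⟨σ, hσ, hcσ⟩ := Finset.exists_ne_zero_of_sum_ne_zero hA1.ne'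
          obtain ⟨τ, hτ, hcτ⟩ := Finset.exists_ne_zero_of_sum_ne_zero hB1.ne'
          obtain ⟨hσS, hσ2⟩ := Finset.mem_filter.mp hσ
          obtain ⟨hτS, hτ2⟩ := Finset.mem_filter.mp hτ
          have hne : σ ≠ τ := fun he => hτ2 (he ▸ hσ2)
          have h1 : σ * (c σ : ℝ) + τ * (c τ : ℝ) ≤ 1 := by
            refine le_trans ?_ hc
            rw [← Finset.sum_pair hne (f := fun σ => σ * (c σ : ℝ))]
            apply Finset.sum_le_sum_of_subset_of_nonneg
            · intro ρ hρ
              rcases Finset.mem_insert.mp hρ with rfl | hρ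
              · exact hσS
              · rw [Finset.mem_singleton.mp hρ]; exact hτS
            · intro ρ hρ _
              exact mul_nonneg (hSpos ρ hρ).le (Nat.cast_nonneg _)
          have h2 : (1 : ℝ) ≤ (c σ : ℝ) := by exact_mod_cast Nat.one_le_iff_ne_zero.mpr hcσ
          have h4 : (1 : ℝ) ≤ (c τ : ℝ) := by exact_mod_cast Nat.one_le_iff_ne_zero.mpr hcτ
          obtain ⟨x, hx, rfl⟩ := Finset.mem_image.mp hσS
          obtain ⟨y, hy, rfl⟩ := Finset.mem_image.mp hτS
          have h5 := hpair x (Finset.mem_filter.mpr ⟨hx, hσ2⟩) y (Finset.mem_filter.mpr ⟨hy, hτ2⟩)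
          have h6 := (h x hx).1
          have h7 := (h y hy).1
          nlinarith
        have hBr : 2 * ∑ σ ∈ (sizes a T).filter (fun σ => 1 / 2 < σ), (c σ : ℝ) +
            ∑ σ ∈ (sizes a T).filter (fun σ => ¬ 1 / 2 < σ), (c σ : ℝ) ≤ 2 := by
          exact_mod_cast hB
        have hval : ∑ σ ∈ sizes a T, (c σ : ℝ) * (if 1 / 2 < σ then (1 : ℝ) else 1 / 2) =
            ∑ σ ∈ (sizes a T).filter (fun σ => 1 / 2 < σ), (c σ : ℝ) +
            (∑ σ ∈ (sizes a T).filter (fun σ => ¬ 1 / 2 < σ), (c σ : ℝ)) * (1 / 2) := by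
          rw [← Finset.sum_filter_add_sum_filter_not (sizes a T) (fun σ => 1 / 2 < σ),
            Finset.sum_mul]
          congr 1
          · apply Finset.sum_congr rfl
            intro σ hσ
            rw [if_pos (Finset.mem_filter.mp hσ).2, mul_one]
          · apply Finset.sum_congr rfl
            intro σ hσ
            rw [if_neg (Finset.mem_filter.mp hσ).2]
        rw [hval]
        linarith)
      have hval : ∑ i ∈ T, (if 1 / 2 < a i then (1 : ℝ) else 1 / 2) =
          (L.card : ℝ) + (M.card : ℝ) * (1 / 2) := by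
        rw [← Finset.sum_filter_add_sum_filter_not T (fun i => 1 / 2 < a i)]
        congr 1
        · rw [Finset.sum_congr rfl (fun i hi => if_pos (Finset.mem_filter.mp hi).2),
            Finset.sum_const, nsmul_eq_mul, mul_one]
        · rw [Finset.sum_congr rfl (fun i hi => if_neg (Finset.mem_filter.mp hi).2),
            Finset.sum_const, nsmul_eq_mul]
      rw [hval] at hd
      have h5 : ((2 * L.card + M.card : ℕ) : ℝ) ≤ ((6 : ℕ) : ℝ) := by
        push_cast at hLP ⊢
        linarith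
      exact_mod_cast h5
    have p1 := packs_each L hLh
    have p2 := packs_half _ M rfl hMh
    have p3 := Packs.union hdis p1 p2
    rw [hLM] at p3
    exact p3.mono (by omega)

theorem small (a : ι → ℝ) (T : Finset ι) (h : ∀ i ∈ T, 0 < a i ∧ a i ≤ 1) (m : ℕ) (hm : m ≤ 3)
    (hLP : LP a T ≤ m) : Packs a T (m + 1) := by
  classical
  have hempty : ∀ (T : Finset ι) (k : ℕ), (∀ i ∈ T, False) → Packs a T k := by
    intro T k hT
    rw [Finset.eq_empty_of_forall_notMem (fun i hi => hT i hi)]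
    exact (packs_empty a).mono (Nat.zero_le _)
  refine reduce m a ?_ T.card T rfl h hLP
  intro U hU hbig hLPU
  interval_cases m
  · exact hempty U _ (fun i hi => by have := hbig i hi; norm_num at this)
  · exact hempty U _ (fun i hi => by
      have h1 := hbig i hi; have h2 := (hU i hi).2; norm_num at h1; linarith)
  · exact base2 a U hU hbig hLPU
  · exact base3 a U hU hbig hLPU

theorem lp_nonneg (a : ι → ℝ) (T : Finset ι) : 0 ≤ LP a T := by
  apply Real.sInf_nonneg
  rintro v ⟨k, c, z, hz, _, _, rfl⟩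
  exact Finset.sum_nonneg (fun j _ => hz j)

theorem final (a : ι → ℝ) (T : Finset ι) (h : ∀ i ∈ T, 0 < a i ∧ a i ≤ 1)
    (h3 : ⌈LP a T⌉ ≤ 3) : (OPT a T : ℤ) ≤ ⌈LP a T⌉ + 1 := by
  have h0 : 0 ≤ ⌈LP a T⌉ := Int.ceil_nonneg (lp_nonneg a T)
  obtain ⟨m, hm⟩ := Int.eq_ofNat_of_zero_le h0
  have hle : LP a T ≤ (m : ℝ) := by
    have := Int.le_ceil (LP a T)
    rw [hm] at this
    exact_mod_cast this
  have hp := small a T h m (by omega) hle
  have : OPT a T ≤ m + 1 := Nat.sInf_le hp
  rw [hm]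
  exact_mod_cast this

end Vale.Agent.P302R
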