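import Mathlib

/-! # Bin packing and the configuration LP -/

namespace Vale.Agent.P302R

open Finset

variable {ι : Type*}

/-- The items `i ∈ T`, of sizes `a i`, can be packed into `m` bins of capacity one. -/
def Packs (a : ι → ℝ) (T : Finset ι) (m : ℕ) : Prop :=
  ∃ p : ι → ℕ, (∀ i ∈ T, p i < m) ∧ ∀ b : ℕ, ∑ i ∈ T with p i = b, a i ≤ 1

/-- The least number of bins. -/
noncomputable def OPT (a : ι → ℝ) (T : Finset ι) : ℕ := sInf {m | Packs a T m}

/-- The set of distinct sizes. -/
noncomputable def sizes (a : ι → ℝ) (T : Finset ι) : Finset ℝ := T.image a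

/-- The number of items of size `σ`. -/
noncomputable def mult (a : ι → ℝ) (T : Finset ι) (σ : ℝ) : ℕ := (T.filter (fun i => a i = σ)).card

/-- `v` is the value of a feasible solution of the Gilmore-Gomory configuration LP: `k`
configurations `c j` (vectors of multiplicities on the distinct sizes) with weights `z j`. -/
def IsLPValue (a : ι → ℝ) (T : Finset ι) (v : ℝ) : Prop :=
  ∃ (k : ℕ) (c : Fin k → ℝ → ℕ) (z : Fin k → ℝ), (∀ j, 0 ≤ z j) ∧
    (∀ j, ∑ σ ∈ sizes a T, σ * (c j σ : ℝ) ≤ 1) ∧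
    (∀ σ ∈ sizes a T, (mult a T σ : ℝ) ≤ ∑ j, z j * (c j σ : ℝ)) ∧ v = ∑ j, z j

/-- The value of the configuration LP. -/
noncomputable def LP (a : ι → ℝ) (T : Finset ι) : ℝ := sInf {v | IsLPValue a T v}

end Vale.Agent.P302R
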