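import Vale.Agent.P302R.Defs

namespace Vale.Agent.P302R

open Finset

variable {ι : Type*} [DecidableEq ι]

theorem lp_nonempty (a : ι → ℝ) (T : Finset ι) (h : ∀ i ∈ T, 0 < a i ∧ a i ≤ 1) :
    ∃ v, IsLPValue a T v := by
  classical
  refine ⟨_, T.card, fun j σ => if σ = a (T.equivFin.symm j) then 1 else 0, fun _ => 1,
    fun _ => zero_le_one, ?_, ?_, rfl⟩
  · intro j
    have hmem : a (T.equivFin.symm j) ∈ sizes a T :=
      Finset.mem_image_of_mem a (T.equivFin.symm j).2
    rw [Finset.sum_eq_single (a (T.equivFin.symm j))]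
    · simpa using (h _ (T.equivFin.symm j).2).2
    · intro b _ hb
      simp [hb]
    · intro hb; exact absurd hmem hb
  · intro σ _
    have h1 : ∑ j : Fin T.card, (1 : ℝ) * (((if σ = a (T.equivFin.symm j) then 1 else 0 : ℕ)) : ℝ)
        = ∑ i : T, (if σ = a i then (1 : ℝ) else 0) := by
      rw [← Equiv.sum_comp T.equivFin.symm]
      apply Finset.sum_congr rfl
      intro j _
      split_ifs <;> simp
    rw [h1, Finset.sum_coe_sort T (fun i => if σ = a i then (1 : ℝ) else 0), ← Finset.sum_filter,
      Finset.sum_const, nsmul_eq_mul, mul_one]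
    unfold mult
    apply le_of_eq
    congr 2
    ext i
    simp [eq_comm]

theorem dual (a : ι → ℝ) (T : Finset ι) (h : ∀ i ∈ T, 0 < a i ∧ a i ≤ 1) (w : ℝ → ℝ)
    (hw : ∀ σ ∈ sizes a T, 0 ≤ w σ)
    (hc : ∀ c : ℝ → ℕ, ∑ σ ∈ sizes a T, σ * (c σ : ℝ) ≤ 1 →
      ∑ σ ∈ sizes a T, (c σ : ℝ) * w σ ≤ 1) :
    ∑ i ∈ T, w (a i) ≤ LP a T := by
  classical
  apply le_csInf (lp_nonempty a T h)
  rintro v ⟨k, c, z, hz, hcj, hcov, rfl⟩
  have h1 : ∑ i ∈ T, w (a i) = ∑ σ ∈ sizes a T, (mult a T σ : ℝ) * w σ := by
    rw [Finset.sum_comp w a]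
    apply Finset.sum_congr rfl
    intro σ _
    rw [nsmul_eq_mul]
    rfl
  rw [h1]
  calc ∑ σ ∈ sizes a T, (mult a T σ : ℝ) * w σ
      ≤ ∑ σ ∈ sizes a T, (∑ j, z j * (c j σ : ℝ)) * w σ :=
        Finset.sum_le_sum (fun σ hσ => mul_le_mul_of_nonneg_right (hcov σ hσ) (hw σ hσ))
    _ = ∑ j, z j * ∑ σ ∈ sizes a T, (c j σ : ℝ) * w σ := by
        simp_rw [Finset.sum_mul, Finset.mul_sum]
        rw [Finset.sum_comm]
        apply Finset.sum_congr rfl
        intro j _
        apply Finset.sum_congr rfl
        intro σ _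
        ring
    _ ≤ ∑ j, z j * 1 :=
        Finset.sum_le_sum (fun j _ => mul_le_mul_of_nonneg_left (hc (c j) (hcj j)) (hz j))
    _ = ∑ j, z j := by simp

theorem lp_erase (a : ι → ℝ) (T : Finset ι) (h : ∀ i ∈ T, 0 < a i ∧ a i ≤ 1) (i : ι) :
    LP a (T.erase i) ≤ LP a T := by
  classical
  have hsub : sizes a (T.erase i) ⊆ sizes a T := Finset.image_subset_image (Finset.erase_subset _ _)
  apply le_csInf (lp_nonempty a T h)
  rintro v ⟨k, c, z, hz, hcj, hcov, rfl⟩
  apply csInf_le
  · refine ⟨0, ?_⟩
    rintro v ⟨k, c, z, hz, _, _, rfl⟩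
    exact Finset.sum_nonneg (fun j _ => hz j)
  · refine ⟨k, c, z, hz, ?_, ?_, rfl⟩
    · intro j
      refine le_trans (Finset.sum_le_sum_of_subset_of_nonneg hsub ?_) (hcj j)
      intro σ hσ _
      obtain ⟨l, hl, rfl⟩ := Finset.mem_image.mp hσ
      exact mul_nonneg (h l hl).1.le (Nat.cast_nonneg _)
    · intro σ hσ
      refine le_trans ?_ (hcov σ (hsub hσ))
      exact_mod_cast Finset.card_le_card (Finset.filter_subset_filter _ (Finset.erase_subset _ _))

theorem Packs.mono {a : ι → ℝ} {T : Finset ι} {m m' : ℕ} (h : Packs a T m) (hm : m ≤ m') :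
    Packs a T m' := by
  obtain ⟨p, hp, hb⟩ := h
  exact ⟨p, fun i hi => lt_of_lt_of_le (hp i hi) hm, hb⟩

theorem Packs.union {a : ι → ℝ} {T U : Finset ι} {m m' : ℕ} (hd : Disjoint T U)
    (h : Packs a T m) (h' : Packs a U m') : Packs a (T ∪ U) (m + m') := by
  classical
  obtain ⟨p, hp, hb⟩ := h
  obtain ⟨q, hq, hc⟩ := h'
  refine ⟨fun i => if i ∈ T then p i else m + q i, ?_, ?_⟩
  · intro i hi
    by_cases hiT : i ∈ T
    · simp only [hiT, if_true]
      have := hp i hiT; omega
    · have hiU : i ∈ U := (Finset.mem_union.mp hi).resolve_left hiT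
      simp only [hiT, if_false]
      have := hq i hiU; omega
  · intro b
    by_cases hbm : b < m
    · have : ((T ∪ U).filter (fun i => (if i ∈ T then p i else m + q i) = b)) =
          T.filter (fun i => p i = b) := by
        ext i
        simp only [Finset.mem_filter, Finset.mem_union]
        constructor
        · rintro ⟨hi, hib⟩
          by_cases hiT : i ∈ T
          · simp only [hiT, if_true] at hib; exact ⟨hiT, hib⟩
          · simp only [hiT, if_false] at hib; omega
        · rintro ⟨hi, hib⟩
          exact ⟨Or.inl hi, by simp only [hi, if_true]; exact hib⟩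
      rw [this]; exact hb b
    · have : ((T ∪ U).filter (fun i => (if i ∈ T then p i else m + q i) = b)) =
          U.filter (fun i => q i = b - m) := by
        ext i
        simp only [Finset.mem_filter, Finset.mem_union]
        constructor
        · rintro ⟨hi, hib⟩
          by_cases hiT : i ∈ T
          · simp only [hiT, if_true] at hib
            have := hp i hiT; omega
          · simp only [hiT, if_false] at hib
            exact ⟨hi.resolve_left hiT, by omega⟩
        · rintro ⟨hi, hib⟩
          have hiT : i ∉ T := fun h1 => Finset.disjoint_left.mp hd h1 hi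
          exact ⟨Or.inr hi, by simp only [hiT, if_false]; omega⟩
      rw [this]; exact hc _

theorem packs_empty (a : ι → ℝ) : Packs a ∅ 0 :=
  ⟨fun _ => 0, by simp, by simp⟩

theorem packs_one {a : ι → ℝ} {T : Finset ι} (h : ∑ i ∈ T, a i ≤ 1) (hpos : ∀ i ∈ T, 0 < a i) :
    Packs a T 1 := by
  refine ⟨fun _ => 0, by simp, ?_⟩
  intro b
  exact le_trans (Finset.sum_le_sum_of_subset_of_nonneg (Finset.filter_subset _ _)
    (fun i hi _ => (hpos i hi).le)) h

/-- Items of size at most one: one bin each. -/
theorem packs_each {a : ι → ℝ} (T : Finset ι) (h : ∀ i ∈ T, 0 < a i ∧ a i ≤ 1) :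
    Packs a T T.card := by
  classical
  induction T using Finset.induction_on with
  | empty => exact packs_empty a
  | insert x T hx ih =>
    rw [Finset.card_insert_of_notMem hx, Finset.insert_eq, add_comm]
    apply Packs.union (Finset.disjoint_singleton_left.mpr hx)
    · apply packs_one
      · simpa using (h x (Finset.mem_insert_self _ _)).2
      · intro i hi
        exact (h i (by rw [Finset.mem_singleton.mp hi]; exact Finset.mem_insert_self _ _)).1
    · exact ih (fun i hi => h i (Finset.mem_insert_of_mem hi))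

/-- Items of size at most one half: two per bin. -/
theorem packs_half {a : ι → ℝ} : ∀ (n : ℕ) (T : Finset ι), T.card = n →
    (∀ i ∈ T, 0 < a i ∧ a i ≤ 1 / 2) → Packs a T ((n + 1) / 2) := by
  classical
  intro n
  induction n using Nat.strong_induction_on with
  | _ n ih =>
    intro T hT h
    rcases Nat.lt_or_ge n 2 with hn | hn
    · have h1 : Packs a T T.card := packs_each T (fun i hi => ⟨(h i hi).1, by
        have := (h i hi).2; linarith⟩)
      exact h1.mono (by omega)
    · obtain ⟨x, y, hxy, hsub⟩ : ∃ x y, x ≠ y ∧ ({x, y} : Finset ι) ⊆ T := by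
        obtain ⟨U, hU, hUc⟩ := Finset.exists_subset_card_eq (show 2 ≤ T.card by omega)
        obtain ⟨x, y, hxy, rfl⟩ := Finset.card_eq_two.mp hUc
        exact ⟨x, y, hxy, hU⟩
      have hx : x ∈ T := hsub (by simp)
      have hy : y ∈ T := hsub (by simp)
      have hcard : (T \ {x, y}).card = n - 2 := by
        rw [Finset.card_sdiff_of_subset hsub, Finset.card_pair hxy, hT]
      have h1 := ih (n - 2) (by omega) (T \ {x, y}) hcard
        (fun i hi => h i (Finset.mem_sdiff.mp hi).1)
      have h2 : Packs a ({x, y} : Finset ι) 1 := by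
        apply packs_one
        · rw [Finset.sum_pair hxy]
          have := (h x hx).2; have := (h y hy).2; linarith
        · intro i hi; exact (h i (hsub hi)).1
      have h3 := Packs.union Finset.sdiff_disjoint.symm h2 h1
      rw [Finset.union_sdiff_of_subset hsub] at h3
      exact h3.mono (by omega)

/-- The reduction: a minimal counterexample to `LP ≤ m → OPT ≤ m + 1` has only items larger than
`1 / m`. -/
theorem reduce (m : ℕ) (a : ι → ℝ)
    (hbase : ∀ T : Finset ι, (∀ i ∈ T, 0 < a i ∧ a i ≤ 1) → (∀ i ∈ T, 1 < m * a i) →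
      LP a T ≤ m → Packs a T (m + 1)) :
    ∀ (n : ℕ) (T : Finset ι), T.card = n → (∀ i ∈ T, 0 < a i ∧ a i ≤ 1) → LP a T ≤ m →
      Packs a T (m + 1) := by
  classical
  intro n
  induction n with
  | zero =>
    intro T hT _ _
    rw [Finset.card_eq_zero.mp hT]
    exact (packs_empty a).mono (Nat.zero_le _)
  | succ n ih =>
    intro T hT h hLP
    have hne : T.Nonempty := by rw [← Finset.card_pos]; omega
    obtain ⟨i, hi, hmin⟩ := T.exists_min_image a hne
    have hT' : ∀ j ∈ T.erase i, 0 < a j ∧ a j ≤ 1 := fun j hj => h j (Finset.mem_of_mem_erase hj)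
    obtain ⟨p, hp, hb⟩ := ih (T.erase i) (by rw [Finset.card_erase_of_mem hi]; omega) hT'
      ((lp_erase a T h i).trans hLP)
    by_cases hfit : ∃ b < m + 1, (∑ j ∈ (T.erase i).filter (fun j => p j = b), a j) + a i ≤ 1
    · obtain ⟨b, hbm, hbi⟩ := hfit
      refine ⟨fun j => if j = i then b else p j, ?_, ?_⟩
      · intro j hj
        by_cases hji : j = i
        · simp only [hji, if_true]; exact hbm
        · simp only [hji, if_false]; exact hp j (Finset.mem_erase.mpr ⟨hji, hj⟩)
      · intro b'
        have hsplit : ∑ j ∈ T.filter (fun j => (if j = i then b else p j) = b'), a j =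
            (∑ j ∈ (T.erase i).filter (fun j => p j = b'), a j) +
              (if b = b' then a i else 0) := by
          rw [Finset.sum_filter, ← Finset.add_sum_erase T _ hi, Finset.sum_filter, add_comm]
          congr 1
          · apply Finset.sum_congr rfl
            intro j hj
            simp only [(Finset.mem_erase.mp hj).1, if_false]
          · simp
        rw [hsplit]
        by_cases hbb : b = b'
        · subst hbb; simpa using hbi
        · simpa [hbb] using hb b'
    · push Not at hfit
      apply hbase T h _ hLP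
      have hS : ∑ j ∈ T, a j ≤ LP a T := by
        apply dual a T h (fun σ => σ)
        · intro σ hσ
          obtain ⟨l, hl, rfl⟩ := Finset.mem_image.mp hσ
          exact (h l hl).1.le
        · intro c hc
          refine le_trans (le_of_eq ?_) hc
          exact Finset.sum_congr rfl (fun σ _ => mul_comm _ _)
      have hsum : ∑ j ∈ T.erase i, a j =
          ∑ b ∈ Finset.range (m + 1), ∑ j ∈ (T.erase i).filter (fun j => p j = b), a j :=
        (Finset.sum_fiberwise_of_maps_to (fun j hj => Finset.mem_range.mpr (hp j hj)) _).symm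
      have hlow : ∑ _b ∈ Finset.range (m + 1), (1 - a i) <
          ∑ b ∈ Finset.range (m + 1), ∑ j ∈ (T.erase i).filter (fun j => p j = b), a j := by
        apply Finset.sum_lt_sum_of_nonempty ⟨0, by simp⟩
        intro b hbr
        have := hfit b (Finset.mem_range.mp hbr)
        linarith
      rw [← hsum, Finset.sum_const, Finset.card_range, nsmul_eq_mul] at hlow
      have hT2 := Finset.add_sum_erase T a hi
      push_cast at hlow
      intro j hj
      have hij := hmin j hj
      have hm0 : (0 : ℝ) ≤ m := Nat.cast_nonneg _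
      nlinarith

end Vale.Agent.P302R
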